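import Mathlib

/-!
Core combinatorial construction for the unbounded gap of the configuration LP.
Three classes of items indexed by one finite type: anchors with capacity `w`,
helpers with weight `h`, points with weight `a`. A triple is valid when `a + h ≤ w`.
-/

namespace Vale.Agent.P302

open Finset

open Classical in
/-- indicator with integer values -/
noncomputable def ind (p : Prop) : ℤ := if p then 1 else 0

lemma ind_nonneg (p : Prop) : 0 ≤ ind p := by unfold ind; split_ifs <;> norm_num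
lemma ind_le_one (p : Prop) : ind p ≤ 1 := by unfold ind; split_ifs <;> norm_num
lemma ind_mono {p q : Prop} (h : p → q) : ind p ≤ ind q := by
  unfold ind; split_ifs <;> simp_all
lemma ind_pos {p : Prop} (h : p) : ind p = 1 := by unfold ind; simp [h]
lemma ind_neg {p : Prop} (h : ¬ p) : ind p = 0 := by unfold ind; simp [h]

lemma ind_true : ind True = 1 := ind_pos trivial
lemma ind_false : ind False = 0 := ind_neg id

lemma sum_ind_lt (R n : ℕ) (h : n ≤ R) : ∑ k : Fin R, ind (k.val < n) = n := by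
  rw [Fin.sum_univ_eq_sum_range (fun k => ind (k < n)) R]
  induction R, h using Nat.le_induction with
  | base =>
    rw [Finset.sum_congr rfl (g := fun _ => (1 : ℤ))]
    · simp
    · intro k hk; exact ind_pos (Finset.mem_range.1 hk)
  | succ m hm ih => rw [Finset.sum_range_succ, ih, ind_neg (by omega)]; simp

lemma sum_ind_eq (R n : ℕ) (p : Prop) :
    ∑ k : Fin R, ind (p ∧ k.val = n) = ind (p ∧ n < R) := by
  by_cases hp : p ∧ n < R
  · rw [ind_pos hp, Finset.sum_eq_single (⟨n, hp.2⟩ : Fin R)]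
    · exact ind_pos ⟨hp.1, rfl⟩
    · intro b _ hb
      exact ind_neg (fun h => hb (Fin.ext h.2))
    · simp
  · rw [ind_neg hp]
    apply Finset.sum_eq_zero
    intro k _
    exact ind_neg (fun h => hp ⟨h.1, h.2 ▸ k.2⟩)

/-- The data of a gadget on the index type `ι`. -/
structure Gad (ι : Type) where
  w : ι → ℕ
  h : ι → ℕ
  a : ι → ℕ
  g0 : ι → ℕ
  g1 : ι → ℕ

variable {ι : Type} [Fintype ι]

/-- ranges of the data -/
def Gad.Bdd (G : Gad ι) (T T' : ℕ) : Prop :=
  T ≤ T' ∧ ∀ e, G.w e < T' ∧ T ≤ G.h e ∧ G.h e < T' ∧ G.a e < T' ∧ G.g0 e ≤ G.w e ∧ G.g1 e ≤ G.w e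

/-- the half-integral solution, with `c` half slots borrowed from above -/
def Gad.Frac (G : Gad ι) (c : ℤ) : Prop :=
  (∀ φ : ℕ → ℤ, ∑ e, (φ (G.g0 e) + φ (G.g1 e)) = 2 * ∑ e, φ (G.h e)) ∧
  ∀ t : ℕ, 2 * ∑ e, ind (t ≤ G.a e) ≤
    c + ∑ e, (ind (t + G.g0 e ≤ G.w e) + ind (t + G.g1 e ≤ G.w e))

/-- no integral solution with `S` extra slots and `D` extra small helpers -/
def Gad.NoPack (G : Gad ι) (T T' : ℕ) (S D : ℤ) : Prop :=
  ∀ g : ι → ℕ,
    (∀ θ, T ≤ θ → θ ≤ T' → ∑ e, ind (g e < θ) ≤ ∑ e, ind (G.h e < θ) + D) →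
    (∀ t, ∑ e, ind (t ≤ G.a e) ≤ S + ∑ e, ind (t + g e ≤ G.w e)) → False

/-- The parent gadget with `2 * r` cells. -/
def parent (r o τ : ℕ) (C : ℕ → Gad ι) : Gad (Fin (2 * r) × Option ι) where
  w := fun x => match x.2 with
    | none => (x.1.val + 1) * (2 * τ + 1) + τ
    | some i => x.1.val * (2 * τ + 1) + τ + 1 + (C x.1.val).w i
  h := fun x => match x.2 with
    | none => if x.1.val < r then τ else τ + (2 * τ + 1)
    | some i => (C x.1.val).h i
  a := fun x => match x.2 with
    | none => (x.1.val + 1 - o) * (2 * τ + 1)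
    | some i => x.1.val * (2 * τ + 1) + τ + 1 + (C x.1.val).a i
  g0 := fun x => match x.2 with
    | none => τ
    | some i => (C x.1.val).g0 i
  g1 := fun x => match x.2 with
    | none => τ + (2 * τ + 1)
    | some i => (C x.1.val).g1 i

lemma sum_parent {R : ℕ} (f : Fin R × Option ι → ℤ) :
    ∑ x, f x = ∑ k : Fin R, (f (k, none) + ∑ i, f (k, some i)) := by
  rw [Fintype.sum_prod_type]
  apply Finset.sum_congr rfl
  intro k _
  rw [Fintype.sum_option]

lemma mul_step (j k L : ℕ) (h : j < k) : j * L + L ≤ k * L := by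
  have : (j + 1) * L ≤ k * L := Nat.mul_le_mul_right L h
  linarith [add_mul j 1 L]

section step
variable (r o : ℕ) (Ts : ℕ → ℕ) (C : ℕ → Gad ι)

omit [Fintype ι] in
lemma Ts_mono (hB : ∀ k, (C k).Bdd (Ts k) (Ts (k + 1))) : Monotone Ts :=
  monotone_nat_of_le_succ (fun k => (hB k).1)

omit [Fintype ι] in
lemma parent_bdd (hB : ∀ k, (C k).Bdd (Ts k) (Ts (k + 1))) :
    (parent r o (Ts (2 * r)) C).Bdd (Ts 0)
      (2 * r * (2 * Ts (2 * r) + 1) + Ts (2 * r) + 1) := by
  have hm := Ts_mono Ts C hB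
  have h0 : Ts 0 ≤ Ts (2 * r) := hm (Nat.zero_le _)
  refine ⟨by omega, ?_⟩
  rintro ⟨k, x⟩
  have hk := mul_step k.val (2 * r) (2 * Ts (2 * r) + 1) k.2
  have hk1 : Ts (k.val + 1) ≤ Ts (2 * r) := hm k.2
  have hk0 : Ts 0 ≤ Ts k.val := hm (Nat.zero_le _)
  have e1 : (k.val + 1) * (2 * Ts (2 * r) + 1) = k.val * (2 * Ts (2 * r) + 1) + (2 * Ts (2 * r) + 1) := by
    ring
  have e2 : (k.val + 1 - o) * (2 * Ts (2 * r) + 1) ≤ (k.val + 1) * (2 * Ts (2 * r) + 1) :=
    Nat.mul_le_mul_right _ (Nat.sub_le _ _)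
  cases x with
  | none =>
    simp only [parent]
    refine ⟨by omega, ?_, ?_, by omega, by omega, by omega⟩
    · split_ifs <;> omega
    · split_ifs <;> omega
  | some i =>
    simp only [parent]
    obtain ⟨h1, h2, h3, h4, h5, h6⟩ := (hB k.val).2 i
    refine ⟨by omega, by omega, by omega, by omega, by omega, by omega⟩

lemma parent_fracH (τ : ℕ)
    (hF : ∀ k, ∀ φ : ℕ → ℤ, ∑ e, (φ ((C k).g0 e) + φ ((C k).g1 e)) = 2 * ∑ e, φ ((C k).h e))
    (φ : ℕ → ℤ) :
    ∑ e, (φ ((parent r o τ C).g0 e) + φ ((parent r o τ C).g1 e))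
      = 2 * ∑ e, φ ((parent r o τ C).h e) := by
  rw [sum_parent, sum_parent]
  simp only [parent]
  simp only [hF]
  rw [Finset.sum_add_distrib, Finset.sum_add_distrib (s := univ)
    (f := fun k : Fin (2 * r) => φ (if k.val < r then τ else τ + (2 * τ + 1))), mul_add,
    ← Finset.mul_sum]
  congr 1
  have h1 : ∀ k : Fin (2 * r), φ (if k.val < r then τ else τ + (2 * τ + 1))
      = φ (τ + (2 * τ + 1)) + (φ τ - φ (τ + (2 * τ + 1))) * ind (k.val < r) := by
    intro k
    unfold ind
    split_ifs <;> ring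
  simp only [h1]
  simp only [Finset.sum_add_distrib]
  rw [← Finset.mul_sum, sum_ind_lt _ _ (by omega)]
  simp
  ring

lemma parent_frac_closed (hB : ∀ k, (C k).Bdd (Ts k) (Ts (k + 1))) (hF : ∀ k, (C k).Frac 1) :
    (parent r 1 (Ts (2 * r)) C).Frac 0 := by
  refine ⟨parent_fracH r 1 C _ (fun k => (hF k).1), ?_⟩
  intro t
  have hm := Ts_mono Ts C hB
  rw [sum_parent, sum_parent, zero_add, Finset.mul_sum]
  apply Finset.sum_le_sum
  intro k _
  have hk1 : Ts (k.val + 1) ≤ Ts (2 * r) := hm k.2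
  simp only [parent]
  set τ := Ts (2 * r)
  have e1 : (k.val + 1) * (2 * τ + 1) = k.val * (2 * τ + 1) + (2 * τ + 1) := by ring
  simp only [Nat.add_sub_cancel, e1]
  generalize k.val * (2 * τ + 1) = p
  by_cases h1 : t ≤ p + τ + 1
  · have hs : ∑ i, (ind (t + (C k).g0 i ≤ p + τ + 1 + (C k).w i)
        + ind (t + (C k).g1 i ≤ p + τ + 1 + (C k).w i)) = ∑ _i : ι, (2 : ℤ) := by
      apply Finset.sum_congr rfl
      intro i _
      obtain ⟨_, _, _, _, h5, h6⟩ := (hB k.val).2 i
      rw [ind_pos (by omega), ind_pos (by omega)]; norm_num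
    have hs2 : 2 * ∑ i, ind (t ≤ p + τ + 1 + (C k).a i) ≤ ∑ _i : ι, (2 : ℤ) := by
      rw [Finset.mul_sum]
      apply Finset.sum_le_sum
      intro i _
      have := ind_le_one (t ≤ p + τ + 1 + (C k).a i)
      linarith
    rw [hs]
    have : 2 * ind (t ≤ p) ≤ ind (t + τ ≤ p + (2 * τ + 1) + τ)
        + ind (t + (τ + (2 * τ + 1)) ≤ p + (2 * τ + 1) + τ) := by
      unfold ind; split_ifs <;> omega
    linarith
  · obtain ⟨u, rfl⟩ : ∃ u, t = p + τ + 1 + u := ⟨t - (p + τ + 1), by omega⟩
    simp only [Nat.add_le_add_iff_left, add_assoc (p + τ + 1)]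
    have hA := (hF k.val).2 u
    by_cases h2 : u ≤ τ
    · rw [ind_neg (p := p + τ + 1 + u ≤ p) (by omega),
        ind_pos (p := p + τ + 1 + (u + τ) ≤ p + (2 * τ + 1) + τ) (by omega)]
      have := ind_nonneg (p + τ + 1 + (u + (τ + (2 * τ + 1))) ≤ p + (2 * τ + 1) + τ)
      linarith
    · have hz : ∑ i, ind (u ≤ (C k).a i) = 0 := by
        apply Finset.sum_eq_zero
        intro i _
        obtain ⟨_, _, _, h4, _, _⟩ := (hB k.val).2 i
        exact ind_neg (by omega)
      rw [hz, ind_neg (p := p + τ + 1 + u ≤ p) (by omega)]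
      have h3 := ind_nonneg (p + τ + 1 + (u + (τ + (2 * τ + 1))) ≤ p + (2 * τ + 1) + τ)
      have h4 := ind_nonneg (p + τ + 1 + (u + τ) ≤ p + (2 * τ + 1) + τ)
      have h5 : 0 ≤ ∑ i, (ind (u + (C k).g0 i ≤ (C k).w i) + ind (u + (C k).g1 i ≤ (C k).w i)) :=
        Finset.sum_nonneg (fun i _ => add_nonneg (ind_nonneg _) (ind_nonneg _))
      linarith

lemma parent_frac_open (hB : ∀ k, (C k).Bdd (Ts k) (Ts (k + 1))) (hF : ∀ k, (C k).Frac 0) :
    (parent r 0 (Ts (2 * r)) C).Frac 1 := by
  refine ⟨parent_fracH r 0 C _ (fun k => (hF k).1), ?_⟩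
  intro t
  rw [sum_parent, sum_parent]
  simp only [parent]
  set τ := Ts (2 * r)
  rw [Finset.sum_add_distrib, Finset.sum_add_distrib (s := univ)
    (f := fun k : Fin (2 * r) => ind (t + τ ≤ (k.val + 1) * (2 * τ + 1) + τ)
      + ind (t + (τ + (2 * τ + 1)) ≤ (k.val + 1) * (2 * τ + 1) + τ)), mul_add]
  have hc : 2 * ∑ k : Fin (2 * r), ∑ i, ind (t ≤ k.val * (2 * τ + 1) + τ + 1 + (C k).a i)
      ≤ ∑ k : Fin (2 * r), ∑ i, (ind (t + (C k).g0 i ≤ k.val * (2 * τ + 1) + τ + 1 + (C k).w i)
        + ind (t + (C k).g1 i ≤ k.val * (2 * τ + 1) + τ + 1 + (C k).w i)) := by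
    rw [Finset.mul_sum]
    apply Finset.sum_le_sum
    intro k _
    generalize k.val * (2 * τ + 1) + τ + 1 = p
    by_cases h1 : t ≤ p
    · rw [Finset.mul_sum]
      apply Finset.sum_le_sum
      intro i _
      obtain ⟨_, _, _, _, h5, h6⟩ := (hB k.val).2 i
      rw [ind_pos (by omega), ind_pos (by omega), ind_pos (by omega)]; norm_num
    · obtain ⟨u, rfl⟩ : ∃ u, t = p + u := ⟨t - p, by omega⟩
      simp only [Nat.add_le_add_iff_left, add_assoc p]
      have hA := (hF k.val).2 u
      linarith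
  have ho : ∑ k : Fin (2 * r), ind (t ≤ (k.val + 1 - 0) * (2 * τ + 1))
      ≤ 1 + ∑ k : Fin (2 * r), ind (t ≤ k.val * (2 * τ + 1)) := by
    rw [Fin.sum_univ_eq_sum_range (fun k => ind (t ≤ (k + 1 - 0) * (2 * τ + 1))),
      Fin.sum_univ_eq_sum_range (fun k => ind (t ≤ k * (2 * τ + 1)))]
    have h1 := Finset.sum_range_succ (fun k => ind (t ≤ k * (2 * τ + 1))) (2 * r)
    have h2 := Finset.sum_range_succ' (fun k => ind (t ≤ k * (2 * τ + 1))) (2 * r)
    have h3 := ind_le_one (t ≤ 2 * r * (2 * τ + 1))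
    have h4 := ind_nonneg (t ≤ 0 * (2 * τ + 1))
    simp only [Nat.sub_zero]
    linarith
  have hs : ∑ k : Fin (2 * r), (ind (t + τ ≤ (k.val + 1) * (2 * τ + 1) + τ)
      + ind (t + (τ + (2 * τ + 1)) ≤ (k.val + 1) * (2 * τ + 1) + τ))
      = ∑ k : Fin (2 * r), ind (t ≤ (k.val + 1 - 0) * (2 * τ + 1))
        + ∑ k : Fin (2 * r), ind (t ≤ k.val * (2 * τ + 1)) := by
    rw [← Finset.sum_add_distrib]
    apply Finset.sum_congr rfl
    intro k _
    have e1 : (k.val + 1) * (2 * τ + 1) = k.val * (2 * τ + 1) + (2 * τ + 1) := by ring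
    simp only [Nat.sub_zero, e1]
    generalize k.val * (2 * τ + 1) = p
    unfold ind
    split_ifs <;> omega
  linarith


/-- foreign elements of the parent with respect to cell `k` -/
def foreign {R : ℕ} (k : Fin R) (x : Fin R × Option ι) : Prop := x.1 ≠ k ∨ x.2 = none

lemma sum_split {R : ℕ} (k : Fin R) (f : Fin R × Option ι → Prop) :
    ∑ x, ind (f x) = ∑ i, ind (f (k, some i)) + ∑ x, ind (foreign k x ∧ f x) := by
  rw [sum_parent, sum_parent]
  have h1 : ∑ i, ind (f (k, some i)) = ∑ j : Fin R, ∑ i, ind (j = k ∧ f (j, some i)) := by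
    rw [Finset.sum_eq_single k]
    · simp
    · intro b _ hb
      apply Finset.sum_eq_zero
      intro i _
      exact ind_neg (fun h => hb h.1)
    · simp
  rw [h1, ← Finset.sum_add_distrib]
  apply Finset.sum_congr rfl
  intro j _
  have h2 : ind (foreign k ((j, none) : Fin R × Option ι) ∧ f (j, none)) = ind (f (j, none)) := by
    simp [foreign]
  rw [h2, add_left_comm, ← Finset.sum_add_distrib]
  congr 1
  apply Finset.sum_congr rfl
  intro i _
  by_cases hj : j = k
  · simp [foreign, hj, ind_false]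
  · simp [foreign, hj, ind_false]

lemma parent_noPack (S D : ℤ) (ho : o ≤ 1) (hS : 0 ≤ S) (hr : (r : ℤ) = D + S + o + 1)
    (hD : 0 ≤ D)
    (hB : ∀ k, (C k).Bdd (Ts k) (Ts (k + 1)))
    (hN : ∀ k, (C k).NoPack (Ts k) (Ts (k + 1)) (S + o - 1) (D + 2 * r * (S + o))) :
    (parent r o (Ts (2 * r)) C).NoPack (Ts 0)
      (2 * r * (2 * Ts (2 * r) + 1) + Ts (2 * r) + 1) S D := by
  intro g hH hA
  have hm := Ts_mono Ts C hB
  have hr1 : 1 ≤ r := by omega
  set τ := Ts (2 * r) with hτ
  set P := parent r o τ C with hP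
  have hTk : ∀ k : Fin (2 * r), Ts (k.val + 1) ≤ τ := fun k => hm k.2
  -- the slack of cell `k`
  let off : Fin (2 * r) → ℕ := fun k => k.val * (2 * τ + 1) + τ + 1
  let Sk : Fin (2 * r) → ℤ := fun k =>
    S + ∑ x, ind (foreign k x ∧ off k + g x ≤ P.w x) - ∑ x, ind (foreign k x ∧ off k ≤ P.a x)
  let X : Fin (2 * r) → ℤ := fun k => ∑ i, ind (¬ g (k, some i) ≤ (C k).w i)
  have hAk0 : ∀ (k : Fin (2 * r)) (t : ℕ), t ≤ τ → ∑ i, ind (t ≤ (C k).a i)
      ≤ Sk k + ∑ i, ind (t + g (k, some i) ≤ (C k).w i) := by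
    intro k t ht
    have h1 := hA (off k + t)
    rw [sum_split k, sum_split k (fun x => off k + t + g x ≤ P.w x)] at h1
    have h2 : ∑ i, ind (off k + t ≤ P.a (k, some i)) = ∑ i, ind (t ≤ (C k).a i) := by
      apply Finset.sum_congr rfl
      intro i _
      simp only [hP, parent, off, Nat.add_le_add_iff_left]
    have h3 : ∑ i, ind (off k + t + g (k, some i) ≤ P.w (k, some i))
        = ∑ i, ind (t + g (k, some i) ≤ (C k).w i) := by
      apply Finset.sum_congr rfl
      intro i _
      simp only [hP, parent, off, Nat.add_le_add_iff_left, add_assoc (k.val * (2 * τ + 1) + τ + 1)]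
    have h4 : ∑ x, ind (foreign k x ∧ off k + t + g x ≤ P.w x)
        ≤ ∑ x, ind (foreign k x ∧ off k + g x ≤ P.w x) := by
      apply Finset.sum_le_sum
      intro x _
      exact ind_mono (fun h => ⟨h.1, by omega⟩)
    have h5 : ∑ x, ind (foreign k x ∧ off k ≤ P.a x)
        ≤ ∑ x, ind (foreign k x ∧ off k + t ≤ P.a x) := by
      apply Finset.sum_le_sum
      rintro ⟨j, x⟩ _
      apply ind_mono
      rintro ⟨hf, hle⟩
      refine ⟨hf, ?_⟩
      cases x with
      | none =>
        simp only [hP, parent, off] at hle ⊢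
        by_cases hj : k.val < j.val + 1 - o
        · have := mul_step _ _ (2 * τ + 1) hj
          omega
        · have : (j.val + 1 - o) * (2 * τ + 1) ≤ k.val * (2 * τ + 1) :=
            Nat.mul_le_mul_right _ (by omega)
          omega
      | some i =>
        have hjk : j.val ≠ k.val := by
          intro h
          rcases hf with hf | hf
          · exact hf (Fin.ext h)
          · simp at hf
        simp only [hP, parent, off] at hle ⊢
        obtain ⟨_, _, _, h4, _, _⟩ := (hB j.val).2 i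
        have := hTk j
        by_cases hj : k.val < j.val
        · have := mul_step _ _ (2 * τ + 1) hj
          omega
        · have := mul_step j.val k.val (2 * τ + 1) (by omega)
          omega
    simp only [Sk]
    linarith
  have hX : ∀ k, X k ≤ Sk k := by
    intro k
    have h1 := hAk0 k 0 (Nat.zero_le _)
    have h2 : ∑ i, ind (0 ≤ (C k).a i) = ∑ i, ind (0 + g (k, some i) ≤ (C k).w i) + X k := by
      simp only [X]
      rw [← Finset.sum_add_distrib]
      apply Finset.sum_congr rfl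
      intro i _
      unfold ind
      split_ifs <;> omega
    linarith
  have hX0 : ∀ k, 0 ≤ X k := fun k => Finset.sum_nonneg (fun i _ => ind_nonneg _)
  have hAk : ∀ (k : Fin (2 * r)) (t : ℕ), ∑ i, ind (t ≤ (C k).a i)
      ≤ Sk k + ∑ i, ind (t + g (k, some i) ≤ (C k).w i) := by
    intro k t
    by_cases ht : t ≤ τ
    · exact hAk0 k t ht
    · have hz : ∑ i, ind (t ≤ (C k).a i) = 0 := by
        apply Finset.sum_eq_zero
        intro i _
        obtain ⟨_, _, _, h4, _, _⟩ := (hB k.val).2 i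
        have := hTk k
        exact ind_neg (by omega)
      have h5 : 0 ≤ ∑ i, ind (t + g (k, some i) ≤ (C k).w i) :=
        Finset.sum_nonneg (fun i _ => ind_nonneg _)
      have := hX k
      have := hX0 k
      linarith
  -- averaging
  let big : Fin (2 * r) × Option ι → Prop := fun x => τ + (2 * τ + 1) ≤ g x
  let k0 : Fin (2 * r) := ⟨0, by omega⟩
  have hsum : ∑ k, Sk k ≤ 2 * r * (S + o) - ∑ x, ind (foreign k0 x ∧ big x) := by
    have h1 : ∑ k, Sk k = 2 * r * S + ∑ x, ∑ k : Fin (2 * r),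
        (ind (foreign k x ∧ off k + g x ≤ P.w x) - ind (foreign k x ∧ off k ≤ P.a x)) := by
      rw [Finset.sum_comm]
      simp only [Sk, Finset.sum_sub_distrib, Finset.sum_add_distrib]
      simp
      ring
    have h2 : ∀ x : Fin (2 * r) × Option ι, ∑ k : Fin (2 * r),
        (ind (foreign k x ∧ off k + g x ≤ P.w x) - ind (foreign k x ∧ off k ≤ P.a x))
        ≤ o * ind (x.2 = none) - ind (foreign k0 x ∧ big x) := by
      rintro ⟨j, x⟩
      cases x with
      | none =>
        have h3 : ∀ k : Fin (2 * r),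
            ind (foreign k ((j, none) : Fin (2 * r) × Option ι) ∧ off k + g (j, none) ≤ P.w (j, none))
              - ind (foreign k ((j, none) : Fin (2 * r) × Option ι) ∧ off k ≤ P.a (j, none))
            ≤ o * ind (True ∧ k.val = j.val) - ind (big (j, none) ∧ k.val = j.val) := by
          intro k
          simp only [hP, parent, off, foreign, big, or_true, true_and]
          have e1 : (j.val + 1) * (2 * τ + 1) = j.val * (2 * τ + 1) + (2 * τ + 1) := by ring
          rcases lt_trichotomy k.val j.val with hkj | hkj | hkj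
          · have h4 := mul_step _ _ (2 * τ + 1) hkj
            have h5 : j.val * (2 * τ + 1) ≤ (j.val + 1 - o) * (2 * τ + 1) :=
              Nat.mul_le_mul_right _ (by omega)
            rw [ind_pos (p := _ ≤ (j.val + 1 - o) * (2 * τ + 1)) (by omega),
              ind_neg (p := k.val = j.val) (by omega),
              ind_neg (p := _ ∧ k.val = j.val) (by omega)]
            have := ind_le_one (k.val * (2 * τ + 1) + τ + 1 + g (j, none)
              ≤ (j.val + 1) * (2 * τ + 1) + τ)
            linarith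
          · rw [hkj, e1]
            interval_cases o
            · simp only [Nat.sub_zero, e1]
              unfold ind
              split_ifs <;> omega
            · simp only [Nat.add_sub_cancel]
              unfold ind
              split_ifs <;> omega
          · have h4 := mul_step _ _ (2 * τ + 1) hkj
            rw [ind_neg (p := _ ≤ (j.val + 1) * (2 * τ + 1) + τ) (by omega),
              ind_neg (p := k.val = j.val) (by omega),
              ind_neg (p := _ ∧ k.val = j.val) (by omega)]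
            have := ind_nonneg (k.val * (2 * τ + 1) + τ + 1 ≤ (j.val + 1 - o) * (2 * τ + 1))
            linarith
        refine (Finset.sum_le_sum (fun k _ => h3 k)).trans ?_
        rw [Finset.sum_sub_distrib, ← Finset.mul_sum, sum_ind_eq, sum_ind_eq]
        simp [foreign]
      | some i =>
        obtain ⟨h1, _, _, h4, _, _⟩ := (hB j.val).2 i
        have hj := hTk j
        have h3 : ∀ k : Fin (2 * r),
            ind (foreign k ((j, some i) : Fin (2 * r) × Option ι)
                ∧ off k + g (j, some i) ≤ P.w (j, some i))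
              - ind (foreign k ((j, some i) : Fin (2 * r) × Option ι) ∧ off k ≤ P.a (j, some i))
            ≤ 0 - ind ((big (j, some i) ∧ 1 ≤ j.val) ∧ k.val = j.val - 1) := by
          intro k
          have hf : foreign k ((j, some i) : Fin (2 * r) × Option ι) ↔ j.val ≠ k.val := by
            simp [foreign, Fin.ext_iff]
          simp only [hP, parent, off, hf, big]
          rcases lt_trichotomy k.val j.val with hkj | hkj | hkj
          · have h4 := mul_step _ _ (2 * τ + 1) hkj
            by_cases hk : k.val + 1 = j.val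
            · have e1 : j.val * (2 * τ + 1) = k.val * (2 * τ + 1) + (2 * τ + 1) := by
                rw [← hk]; ring
              unfold ind
              split_ifs <;> omega
            · unfold ind
              split_ifs <;> omega
          · unfold ind
            split_ifs <;> omega
          · have h4 := mul_step _ _ (2 * τ + 1) hkj
            unfold ind
            split_ifs <;> omega
        refine (Finset.sum_le_sum (fun k _ => h3 k)).trans ?_
        rw [Finset.sum_sub_distrib, sum_ind_eq]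
        have hf : foreign k0 ((j, some i) : Fin (2 * r) × Option ι) ↔ j.val ≠ 0 := by
          simp [foreign, Fin.ext_iff, k0]
        have h6 : ind (foreign k0 ((j, some i) : Fin (2 * r) × Option ι) ∧ big (j, some i))
            ≤ ind ((big (j, some i) ∧ 1 ≤ j.val) ∧ j.val - 1 < 2 * r) := by
          apply ind_mono
          rw [hf]
          rintro ⟨h7, h8⟩
          exact ⟨⟨h8, by omega⟩, by omega⟩
        have h7 : ind ((some i : Option ι) = none) = 0 := ind_neg (by simp)
        simp only [h7]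
        simp
        linarith
    have h3 : ∑ x : Fin (2 * r) × Option ι, ind (x.2 = none) = 2 * r := by
      rw [sum_parent]
      simp [ind_true, ind_false]
    have h4 := Finset.sum_le_sum (fun x (_ : x ∈ (univ : Finset (Fin (2 * r) × Option ι))) => h2 x)
    rw [Finset.sum_sub_distrib, ← Finset.mul_sum, h3] at h4
    linarith
  have hbig0 : 0 ≤ ∑ x, ind (foreign k0 x ∧ big x) := Finset.sum_nonneg (fun i _ => ind_nonneg _)
  -- many big helpers
  have hbig : (r : ℤ) - D - Sk k0 ≤ ∑ x, ind (foreign k0 x ∧ big x) := by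
    have hT0 : Ts 0 ≤ τ := hm (Nat.zero_le _)
    have h2r := mul_step 0 (2 * r) (2 * τ + 1) (by omega)
    have h1 := hH (τ + (2 * τ + 1)) (by omega) (by omega)
    have h2 : ∑ x, ind (g x < τ + (2 * τ + 1)) + ∑ x, ind (big x)
        = ∑ _x : Fin (2 * r) × Option ι, (1 : ℤ) := by
      rw [← Finset.sum_add_distrib]
      apply Finset.sum_congr rfl
      intro x _
      simp only [big]
      unfold ind
      split_ifs <;> omega
    have h3 : ∑ x, ind (P.h x < τ + (2 * τ + 1)) + r
        ≤ ∑ _x : Fin (2 * r) × Option ι, (1 : ℤ) := by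
      rw [sum_parent, sum_parent, Finset.sum_add_distrib, Finset.sum_add_distrib]
      have h4 : ∑ k : Fin (2 * r), ind (P.h (k, none) < τ + (2 * τ + 1))
          = ∑ k : Fin (2 * r), ind (k.val < r) := by
        apply Finset.sum_congr rfl
        intro k _
        simp only [hP, parent]
        unfold ind
        split_ifs <;> omega
      rw [h4, sum_ind_lt _ _ (by omega)]
      have h5 : ∑ k : Fin (2 * r), ∑ i, ind (P.h (k, some i) < τ + (2 * τ + 1))
          ≤ ∑ k : Fin (2 * r), ∑ _i : ι, (1 : ℤ) :=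
        Finset.sum_le_sum (fun k _ => Finset.sum_le_sum (fun i _ => ind_le_one _))
      have h6 : ∑ _k : Fin (2 * r), (1 : ℤ) = 2 * r := by simp
      linarith
    have h4 := sum_split k0 big
    have h5 : ∑ i, ind (big (k0, some i)) ≤ X k0 := by
      apply Finset.sum_le_sum
      intro i _
      apply ind_mono
      obtain ⟨h1, _, _, _, _, _⟩ := (hB k0.val).2 i
      have := hTk k0
      simp only [big]
      omega
    have := hX k0
    linarith
  -- a cell with small slack
  obtain ⟨k, hk⟩ : ∃ k, Sk k ≤ S + o - 1 := by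
    by_contra hcon
    push Not at hcon
    have h1 : ∑ k, Sk k = Sk k0 + ∑ k ∈ univ.erase k0, Sk k :=
      (Finset.add_sum_erase _ _ (Finset.mem_univ k0)).symm
    have h2 : ∑ k ∈ univ.erase k0, (S + o) ≤ ∑ k ∈ univ.erase k0, Sk k :=
      Finset.sum_le_sum (fun k _ => by have := hcon k; omega)
    rw [Finset.sum_const, Finset.card_erase_of_mem (Finset.mem_univ _)] at h2
    simp only [Finset.card_univ, Fintype.card_fin, nsmul_eq_mul] at h2
    rw [Nat.cast_sub (by omega)] at h2
    push_cast at h2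
    nlinarith
  refine hN k (fun i => g (k, some i)) ?_ ?_
  · intro θ hθ1 hθ2
    have hT0 : Ts 0 ≤ Ts k.val := hm (Nat.zero_le _)
    have hk1 := hTk k
    have h1 := hH θ (by omega) (by omega)
    rw [sum_split k, sum_split k (fun x => P.h x < θ)] at h1
    have h2 : ∑ i, ind (P.h (k, some i) < θ) = ∑ i, ind ((C k).h i < θ) := rfl
    have h3 : ∑ x, ind (foreign k x ∧ P.h x < θ)
        ≤ ∑ x, ind (foreign k x ∧ g x < θ) + ∑ j, X j := by
      rw [sum_parent, sum_parent, ← Finset.sum_add_distrib]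
      apply Finset.sum_le_sum
      intro j _
      have h4 : ind (foreign k ((j, none) : Fin (2 * r) × Option ι) ∧ P.h (j, none) < θ) = 0 := by
        apply ind_neg
        simp only [hP, parent]
        split_ifs <;> omega
      have h5 := ind_nonneg (foreign k ((j, none) : Fin (2 * r) × Option ι) ∧ g (j, none) < θ)
      have h6 : ∑ i, ind (foreign k ((j, some i) : Fin (2 * r) × Option ι) ∧ P.h (j, some i) < θ)
          ≤ ∑ i, ind (foreign k ((j, some i) : Fin (2 * r) × Option ι) ∧ g (j, some i) < θ)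
            + X j := by
        simp only [X]
        rw [← Finset.sum_add_distrib]
        apply Finset.sum_le_sum
        intro i _
        have hf : foreign k ((j, some i) : Fin (2 * r) × Option ι) ↔ j.val ≠ k.val := by
          simp [foreign, Fin.ext_iff]
        simp only [hf, hP, parent]
        obtain ⟨h1, h2, _, _, _, _⟩ := (hB j.val).2 i
        rcases lt_trichotomy k.val j.val with hkj | hkj | hkj
        · have : Ts (k.val + 1) ≤ Ts j.val := hm hkj
          unfold ind
          split_ifs <;> omega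
        · unfold ind
          split_ifs <;> omega
        · have : Ts (j.val + 1) ≤ Ts k.val := hm hkj
          unfold ind
          split_ifs <;> omega
      linarith
    have h4 : ∑ j, X j ≤ ∑ j, Sk j := Finset.sum_le_sum (fun j _ => hX j)
    linarith
  · intro t
    have := hAk k t
    linarith

end step

/-- A gadget family: one index type, available above every threshold `T`. -/
def Fam (ι : Type) [Fintype ι] (c S D : ℤ) : Prop :=
  ∀ T : ℕ, ∃ (G : Gad ι) (T' : ℕ), G.Bdd T T' ∧ G.Frac c ∧ G.NoPack T T' S D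

lemma fam_seq {c S D : ℤ} (h : Fam ι c S D) (T : ℕ) :
    ∃ (Ts : ℕ → ℕ) (C : ℕ → Gad ι), Ts 0 = T ∧ ∀ k, (C k).Bdd (Ts k) (Ts (k + 1)) ∧ (C k).Frac c ∧
      (C k).NoPack (Ts k) (Ts (k + 1)) S D := by
  choose G T' hG using h
  refine ⟨fun k => T'^[k] T, fun k => G (T'^[k] T), rfl, ?_⟩
  intro k
  simp only [Function.iterate_succ_apply']
  exact hG _

lemma fam_closed (S D : ℤ) (r : ℕ) (hS : 0 ≤ S) (hD : 0 ≤ D) (hr : (r : ℤ) = D + S + 2)
    (h : Fam ι 1 S (D + 2 * r * (S + 1))) : Fam (Fin (2 * r) × Option ι) 0 S D := by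
  intro T
  obtain ⟨Ts, C, h0, hC⟩ := fam_seq h T
  refine ⟨parent r 1 (Ts (2 * r)) C, 2 * r * (2 * Ts (2 * r) + 1) + Ts (2 * r) + 1, ?_, ?_, ?_⟩
  · rw [← h0]; exact parent_bdd r 1 Ts C (fun k => (hC k).1)
  · exact parent_frac_closed r Ts C (fun k => (hC k).1) (fun k => (hC k).2.1)
  · rw [← h0]
    apply parent_noPack r 1 Ts C S D le_rfl hS (by push_cast; omega) hD (fun k => (hC k).1)
    intro k
    have := (hC k).2.2
    simpa using this

lemma fam_open (S D : ℤ) (r : ℕ) (hS : 0 ≤ S) (hD : 0 ≤ D) (hr : (r : ℤ) = D + S + 1)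
    (h : Fam ι 0 (S - 1) (D + 2 * r * S)) : Fam (Fin (2 * r) × Option ι) 1 S D := by
  intro T
  obtain ⟨Ts, C, h0, hC⟩ := fam_seq h T
  refine ⟨parent r 0 (Ts (2 * r)) C, 2 * r * (2 * Ts (2 * r) + 1) + Ts (2 * r) + 1, ?_, ?_, ?_⟩
  · rw [← h0]; exact parent_bdd r 0 Ts C (fun k => (hC k).1)
  · exact parent_frac_open r Ts C (fun k => (hC k).1) (fun k => (hC k).2.1)
  · rw [← h0]
    apply parent_noPack r 0 Ts C S D (Nat.zero_le _) hS (by push_cast; omega) hD (fun k => (hC k).1)
    intro k
    have := (hC k).2.2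
    simpa using this

lemma fam_base (D : ℤ) : Fam Empty 0 (-1) D := by
  intro T
  refine ⟨⟨Empty.elim, Empty.elim, Empty.elim, Empty.elim, Empty.elim⟩, T, ⟨le_rfl, ?_⟩, ⟨?_, ?_⟩, ?_⟩
  · intro e; exact e.elim
  · intro φ; simp
  · intro t; simp
  · intro g _ h
    have := h 0
    simp at this

theorem fam_exists (s : ℕ) : ∀ D : ℤ, 0 ≤ D →
    ∃ (ι : Type) (_ : Fintype ι), Fam ι 0 ((s : ℤ) - 1) D := by
  induction s with
  | zero => intro D _; exact ⟨Empty, inferInstance, by simpa using fam_base D⟩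
  | succ s ih =>
    intro D hD
    obtain ⟨r1, hr1⟩ : ∃ r : ℕ, (r : ℤ) = D + s + 2 := ⟨(D + s + 2).toNat, by omega⟩
    have hD1 : 0 ≤ D + 2 * r1 * ((s : ℤ) + 1) := by positivity
    obtain ⟨r2, hr2⟩ : ∃ r : ℕ, (r : ℤ) = D + 2 * r1 * ((s : ℤ) + 1) + s + 1 :=
      ⟨(D + 2 * r1 * ((s : ℤ) + 1) + s + 1).toNat, by omega⟩
    have hD2 : 0 ≤ D + 2 * r1 * ((s : ℤ) + 1) + 2 * r2 * (s : ℤ) := by positivity
    obtain ⟨κ, hκ, hF⟩ := ih _ hD2
    have h2 := fam_open (s : ℤ) _ r2 (by positivity) hD1 hr2 hF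
    have h1 := fam_closed (s : ℤ) D r1 (by positivity) hD hr1 h2
    refine ⟨Fin (2 * r1) × Option (Fin (2 * r2) × Option κ), inferInstance, ?_⟩
    have e : ((s + 1 : ℕ) : ℤ) - 1 = s := by push_cast; ring
    rw [e]
    exact h1

end Vale.Agent.P302
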