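import Mathlib

/-!
Bin packing and the Gilmore-Gomory configuration LP.
An instance is a finite list `a 0, …, a (n-1)` of rational item sizes.
-/

namespace Vale.Agent.P302

/-- The items can be partitioned into `k` bins, each of total size at most `1`. -/
def PacksInto {n : ℕ} (a : Fin n → ℚ) (k : ℕ) : Prop :=
  ∃ f : Fin n → Fin k, ∀ b : Fin k, ∑ i ∈ Finset.univ.filter (fun i => f i = b), a i ≤ 1

/-- The least number of bins into which the items can be partitioned. -/
noncomputable def OPT {n : ℕ} (a : Fin n → ℚ) : ℕ := sInf {k : ℕ | PacksInto a k}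

/-- The number of items of size `σ`. -/
def mult {n : ℕ} (a : Fin n → ℚ) (σ : ℚ) : ℕ := (Finset.univ.filter (fun i => a i = σ)).card

/-- A configuration: a vector of nonnegative integers indexed by the sizes that occur in the
instance (zero at all other rationals), of total size at most `1`. -/
def IsConfig {n : ℕ} (a : Fin n → ℚ) (c : ℚ →₀ ℕ) : Prop :=
  (∀ σ ∈ c.support, σ ∈ Set.range a) ∧ ∑ σ ∈ c.support, σ * (c σ : ℚ) ≤ 1

/-- A feasible solution of the configuration LP: nonnegative real weights on configurations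
that cover every size at least as often as it occurs. -/
def LPFeasible {n : ℕ} (a : Fin n → ℚ) (z : (ℚ →₀ ℕ) →₀ ℝ) : Prop :=
  (∀ c, 0 ≤ z c) ∧ (∀ c ∈ z.support, IsConfig a c) ∧
    ∀ σ ∈ Set.range a, (mult a σ : ℝ) ≤ ∑ c ∈ z.support, (c σ : ℝ) * z c

/-- The value of the Gilmore-Gomory configuration LP. -/
noncomputable def LP {n : ℕ} (a : Fin n → ℚ) : ℝ :=
  sInf {v : ℝ | ∃ z : (ℚ →₀ ℕ) →₀ ℝ, LPFeasible a z ∧ v = ∑ c ∈ z.support, z c}

end Vale.Agent.P302
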