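import Vale.Agent.P302.Core
import Vale.Agent.P302.Defs

/-!
From gadgets to bin packing instances.
-/

namespace Vale.Agent.P302

open Finset

lemma sum_ind_card {α : Type} [Fintype α] (p : α → Prop) [DecidablePred p] :
    ∑ e, ind (p e) = ((univ.filter p).card : ℤ) := by
  rw [Finset.card_filter]
  push_cast
  apply Finset.sum_congr rfl
  intro e _
  unfold ind
  split_ifs <;> rfl

lemma sum_ind_le_of_inj {α β : Type} [Fintype α] [Fintype β] (p : α → Prop) (q : β → Prop)
    (φ : ∀ e, p e → β) (hq : ∀ e he, q (φ e he))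
    (hinj : ∀ e e' he he', φ e he = φ e' he' → e = e') :
    ∑ e, ind (p e) ≤ ∑ e, ind (q e) := by
  classical
  rw [sum_ind_card, sum_ind_card, ← Fintype.card_subtype, ← Fintype.card_subtype]
  have : Fintype.card {e // p e} ≤ Fintype.card {e // q e} := by
    apply Fintype.card_le_of_injective (fun x : {e // p e} => (⟨φ x.1 x.2, hq _ _⟩ : {e // q e}))
    intro x y hxy
    exact Subtype.ext (hinj _ _ _ _ (congrArg Subtype.val hxy))
  exact_mod_cast this

/-- a half-integral solution bounds the LP value -/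
lemma LP_le_of_half {n : ℕ} (a : Fin n → ℚ) {J : Type} [Fintype J] (cfg : J → (ℚ →₀ ℕ))
    (hc : ∀ j, IsConfig a (cfg j)) (hcov : ∀ σ, 2 * mult a σ ≤ ∑ j, cfg j σ) :
    LP a ≤ (Fintype.card J : ℝ) / 2 := by
  classical
  let z : (ℚ →₀ ℕ) →₀ ℝ := ∑ j, Finsupp.single (cfg j) (1 / 2 : ℝ)
  have hz : ∀ F : (ℚ →₀ ℕ) → ℝ, ∑ c ∈ z.support, F c * z c = ∑ j, F (cfg j) * (1 / 2) := by
    intro F
    have h1 : ∑ c ∈ z.support, F c * z c = Finsupp.linearCombination ℝ F z := by
      rw [Finsupp.linearCombination_apply, Finsupp.sum]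
      apply Finset.sum_congr rfl
      intro c _
      simp [mul_comm]
    rw [h1]
    simp only [z, map_sum, Finsupp.linearCombination_single]
    apply Finset.sum_congr rfl
    intro j _
    simp [mul_comm]
  have hfeas : LPFeasible a z := by
    refine ⟨?_, ?_, ?_⟩
    · intro c
      simp only [z, Finsupp.finsetSum_apply]
      apply Finset.sum_nonneg
      intro j _
      rw [Finsupp.single_apply]
      split_ifs <;> norm_num
    · intro c hcs
      have := Finsupp.support_finsetSum hcs
      simp only [Finset.mem_biUnion, Finset.mem_univ, true_and] at this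
      obtain ⟨j, hj⟩ := this
      have := Finsupp.support_single_subset hj
      simp only [Finset.mem_singleton] at this
      rw [this]
      exact hc j
    · intro σ _
      rw [hz (fun c => (c σ : ℝ)), ← Finset.sum_mul]
      have : ((2 * mult a σ : ℕ) : ℝ) ≤ ((∑ j, cfg j σ : ℕ) : ℝ) := by exact_mod_cast hcov σ
      push_cast at this
      linarith
  unfold LP
  apply csInf_le
  · refine ⟨0, ?_⟩
    rintro v ⟨y, hy, rfl⟩
    exact Finset.sum_nonneg (fun c _ => hy.1 c)
  · refine ⟨z, hfeas, ?_⟩
    have := hz (fun _ => 1)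
    simp only [one_mul] at this
    rw [this]
    simp
    ring

lemma packsInto_self {n : ℕ} (a : Fin n → ℚ) (h : ∀ i, a i ≤ 1) : PacksInto a n := by
  refine ⟨id, ?_⟩
  intro b
  have : univ.filter (fun i : Fin n => id i = b) = {b} := by
    ext i; simp
  rw [this]
  simpa using h b

lemma packsInto_mono {n : ℕ} (a : Fin n → ℚ) {k l : ℕ} (hkl : k ≤ l) (h : PacksInto a k) :
    PacksInto a l := by
  obtain ⟨f, hf⟩ := h
  refine ⟨fun i => Fin.castLE hkl (f i), ?_⟩
  intro b
  by_cases hb : b.val < k
  · have : univ.filter (fun i => Fin.castLE hkl (f i) = b)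
        = univ.filter (fun i => f i = ⟨b.val, hb⟩) := by
      ext i; simp [Fin.ext_iff]
    rw [this]
    exact hf _
  · have : univ.filter (fun i => Fin.castLE hkl (f i) = b) = ∅ := by
      ext i
      simp only [Finset.mem_filter, Finset.mem_univ, true_and, Finset.notMem_empty, iff_false]
      intro h
      apply hb
      rw [← h]
      exact (f i).2
    rw [this]
    simp

lemma lt_OPT {n : ℕ} (a : Fin n → ℚ) (h : ∀ i, a i ≤ 1) (k : ℕ) (hk : ¬ PacksInto a k) :
    k < OPT a := by
  by_contra hcon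
  push Not at hcon
  have hne : {k : ℕ | PacksInto a k}.Nonempty := ⟨n, packsInto_self a h⟩
  exact hk (packsInto_mono a hcon (Nat.sInf_mem hne))

variable {ι : Type} [Fintype ι]

/-- the matching of half points to half slots -/
lemma exists_half_matching (G : Gad ι) (hF : G.Frac 0) :
    ∃ π : ι × Bool → ι × Bool, Function.Bijective π ∧
      ∀ x, G.a x.1 + (if (π x).2 then G.g1 (π x).1 else G.g0 (π x).1) ≤ G.w (π x).1 := by
  classical
  let t : ι × Bool → Finset (ι × Bool) := fun x =>
    univ.filter (fun y => G.a x.1 + (if y.2 then G.g1 y.1 else G.g0 y.1) ≤ G.w y.1)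
  have hall : ∀ s : Finset (ι × Bool), s.card ≤ (s.biUnion t).card := by
    intro s
    rcases s.eq_empty_or_nonempty with rfl | hs
    · simp
    obtain ⟨x0, hx0, hmin⟩ := s.exists_min_image (fun x => G.a x.1) hs
    have h1 : s ⊆ univ.filter (fun x : ι × Bool => G.a x0.1 ≤ G.a x.1) := by
      intro x hx
      simpa using hmin x hx
    have h2 : t x0 ⊆ s.biUnion t := Finset.subset_biUnion_of_mem t hx0
    have h3 : ((univ.filter (fun x : ι × Bool => G.a x0.1 ≤ G.a x.1)).card : ℤ)
        ≤ ((t x0).card : ℤ) := by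
      simp only [t]
      rw [← sum_ind_card, ← sum_ind_card, Fintype.sum_prod_type, Fintype.sum_prod_type]
      have := hF.2 (G.a x0.1)
      simp only [Fintype.sum_bool, if_true, Bool.false_eq_true, if_false]
      rw [zero_add, Finset.mul_sum] at this
      refine le_trans (le_of_eq ?_) (this.trans (le_of_eq ?_))
      · apply Finset.sum_congr rfl
        intro e _
        ring
      · apply Finset.sum_congr rfl
        intro e _
        ring
    have h4 := Finset.card_le_card h1
    have h5 := Finset.card_le_card h2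
    omega
  obtain ⟨π, hinj, hπ⟩ := (Finset.all_card_le_biUnion_card_iff_exists_injective t).1 hall
  refine ⟨π, Finite.injective_iff_bijective.1 hinj, ?_⟩
  intro x
  have := hπ x
  simpa [t] using this

/-- size of an anchor -/
def szW (T' x : ℕ) : ℚ := 2 / 5 - (x : ℚ) / (1000 * (T' + 1))
/-- size of a helper -/
def szH (T' x : ℕ) : ℚ := 8 / 25 + (x : ℚ) / (1000 * (T' + 1))
/-- size of a point -/
def szA (T' x : ℕ) : ℚ := 7 / 25 + (x : ℚ) / (1000 * (T' + 1))

lemma frac_bd (T' x : ℕ) (h : x < T') :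
    0 ≤ (x : ℚ) / (1000 * (T' + 1)) ∧ (x : ℚ) / (1000 * (T' + 1)) ≤ 1 / 1000 := by
  constructor
  · positivity
  · rw [div_le_div_iff₀ (by positivity) (by positivity)]
    have : (x : ℚ) < T' := by exact_mod_cast h
    linarith

lemma triple_iff (T' w h a : ℕ) : szW T' w + szH T' h + szA T' a ≤ 1 ↔ a + h ≤ w := by
  unfold szW szH szA
  have hp : (0 : ℚ) < 1000 * (T' + 1) := by positivity
  have e : 2 / 5 - (w : ℚ) / (1000 * (T' + 1)) + (8 / 25 + (h : ℚ) / (1000 * (T' + 1)))
      + (7 / 25 + (a : ℚ) / (1000 * (T' + 1))) = 1 + ((a + h : ℕ) - (w : ℚ)) / (1000 * (T' + 1)) := by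
    push_cast
    ring
  rw [e, add_le_iff_nonpos_right, div_nonpos_iff]
  constructor
  · rintro (⟨_, h2⟩ | ⟨h1, _⟩)
    · linarith
    · have : ((a + h : ℕ) : ℚ) ≤ w := by linarith
      exact_mod_cast this
  · intro h1
    right
    have : ((a + h : ℕ) : ℚ) ≤ w := by exact_mod_cast h1
    exact ⟨by linarith, hp.le⟩

/-- the sizes of all items -/
def sz (G : Gad ι) (T' : ℕ) : ι ⊕ ι ⊕ ι → ℚ
  | Sum.inl e => szW T' (G.w e)
  | Sum.inr (Sum.inl e) => szH T' (G.h e)
  | Sum.inr (Sum.inr e) => szA T' (G.a e)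

/-- the instance as a list -/
noncomputable def inst (G : Gad ι) (T' : ℕ) : Fin (Fintype.card (ι ⊕ ι ⊕ ι)) → ℚ :=
  fun i => sz G T' ((Fintype.equivFin (ι ⊕ ι ⊕ ι)).symm i)

lemma inst_range (G : Gad ι) (T' : ℕ) (hB : G.Bdd 0 T') (i) :
    1 / 4 < inst G T' i ∧ inst G T' i < 1 / 2 := by
  unfold inst
  generalize (Fintype.equivFin (ι ⊕ ι ⊕ ι)).symm i = x
  rcases x with e | e | e
  · have := frac_bd T' _ (hB.2 e).1
    simp only [sz, szW]
    constructor <;> linarith [this.1, this.2]
  · have := frac_bd T' _ (hB.2 e).2.2.1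
    simp only [sz, szH]
    constructor <;> linarith [this.1, this.2]
  · have := frac_bd T' _ (hB.2 e).2.2.2.1
    simp only [sz, szA]
    constructor <;> linarith [this.1, this.2]

lemma mem_range_inst (G : Gad ι) (T' : ℕ) (x) : sz G T' x ∈ Set.range (inst G T') :=
  ⟨Fintype.equivFin _ x, by simp [inst]⟩

lemma inst_LP (G : Gad ι) (T' : ℕ) (hF : G.Frac 0) : LP (inst G T') ≤ Fintype.card ι := by
  classical
  obtain ⟨π, hbij, hπ⟩ := exists_half_matching G hF
  let gg : ι × Bool → ℕ := fun y => if y.2 then G.g1 y.1 else G.g0 y.1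
  let cfg : ι × Bool → (ℚ →₀ ℕ) := fun x =>
    Finsupp.single (szW T' (G.w (π x).1)) 1 + Finsupp.single (szH T' (gg (π x))) 1
      + Finsupp.single (szA T' (G.a x.1)) 1
  have hgg : ∀ φ : ℕ → ℤ, ∑ y, φ (gg y) = 2 * ∑ e, φ (G.h e) := by
    intro φ
    rw [← hF.1 φ, Fintype.sum_prod_type]
    apply Finset.sum_congr rfl
    intro e _
    simp [gg, add_comm]
  have hrange : ∀ y, ∃ e, G.h e = gg y := by
    intro y
    by_contra hcon
    push Not at hcon
    have h1 := hgg (fun v => ind (v = gg y))
    have h2 : ∑ e, ind (G.h e = gg y) = 0 :=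
      Finset.sum_eq_zero (fun e _ => ind_neg (hcon e))
    have h3 : ind (gg y = gg y) ≤ ∑ y', ind (gg y' = gg y) :=
      Finset.single_le_sum (f := fun y' => ind (gg y' = gg y)) (fun _ _ => ind_nonneg _)
        (Finset.mem_univ y)
    rw [ind_pos rfl] at h3
    linarith
  have h := LP_le_of_half (inst G T') cfg ?_ ?_
  · simpa using h
  · intro x
    constructor
    · intro σ hσ
      simp only [cfg] at hσ
      have h1 := Finsupp.support_add hσ
      rw [Finset.mem_union] at h1
      rcases h1 with h1 | h1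
      · have h2 := Finsupp.support_add h1
        rw [Finset.mem_union] at h2
        rcases h2 with h2 | h2
        · have := Finset.mem_singleton.1 (Finsupp.support_single_subset h2)
          rw [this]
          exact mem_range_inst G T' (Sum.inl _)
        · have := Finset.mem_singleton.1 (Finsupp.support_single_subset h2)
          obtain ⟨e, he⟩ := hrange (π x)
          rw [this, ← he]
          exact mem_range_inst G T' (Sum.inr (Sum.inl _))
      · have := Finset.mem_singleton.1 (Finsupp.support_single_subset h1)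
        rw [this]
        exact mem_range_inst G T' (Sum.inr (Sum.inr _))
    · have e : ∑ σ ∈ (cfg x).support, σ * ((cfg x) σ : ℚ)
          = (cfg x).sum (fun σ k => σ * (k : ℚ)) := rfl
      rw [e]
      simp only [cfg]
      rw [Finsupp.sum_add_index' (by simp) (by intros; push_cast; ring),
        Finsupp.sum_add_index' (by simp) (by intros; push_cast; ring),
        Finsupp.sum_single_index (by simp), Finsupp.sum_single_index (by simp),
        Finsupp.sum_single_index (by simp)]
      simp only [Nat.cast_one, mul_one]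
      exact (triple_iff _ _ _ _).2 (hπ x)
  · intro σ
    have h1 : (mult (inst G T') σ : ℤ) = ∑ x, ind (sz G T' x = σ) := by
      unfold mult
      rw [← sum_ind_card]
      exact Equiv.sum_comp (Fintype.equivFin (ι ⊕ ι ⊕ ι)).symm (fun x => ind (sz G T' x = σ))
    have h2 : ∀ (τ : ℚ), (((Finsupp.single τ 1 : ℚ →₀ ℕ) σ : ℕ) : ℤ) = ind (τ = σ) := by
      intro τ
      rw [Finsupp.single_apply]
      unfold ind
      split_ifs <;> rfl
    have h3 : ((∑ j, cfg j σ : ℕ) : ℤ) = 2 * ∑ x, ind (sz G T' x = σ) := by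
      push_cast
      simp only [cfg, Finsupp.add_apply, Nat.cast_add, h2, Finset.sum_add_distrib,
        Fintype.sum_sum_type, sz]
      rw [hbij.sum_comp (fun y => ind (szW T' (G.w y.1) = σ)),
        hbij.sum_comp (fun y => ind (szH T' (gg y) = σ)),
        hgg (fun v => ind (szH T' v = σ)), Fintype.sum_prod_type, Fintype.sum_prod_type]
      simp only [Fintype.sum_bool, Finset.sum_add_distrib]
      ring
    have : ((2 * mult (inst G T') σ : ℕ) : ℤ) ≤ ((∑ j, cfg j σ : ℕ) : ℤ) := by
      rw [h3]; push_cast; rw [h1]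
    exact_mod_cast this

lemma bin_count (x y z : ℕ) (h : 399 * x + 320 * y + 280 * z ≤ 1000) :
    (10 * x + 8 * y + 7 * z : ℤ) ≤ 24 + ind (x = 1 ∧ y = 1 ∧ z = 1) := by
  have hx : x ≤ 2 := by omega
  have hy : y ≤ 3 := by omega
  have hz : z ≤ 3 := by omega
  interval_cases x <;> interval_cases y <;> interval_cases z <;>
    first
      | omega
      | simp [ind_true, ind_false]

lemma inst_noPack (G : Gad ι) (T' c : ℕ) (hB : G.Bdd 0 T') (hN : G.NoPack 0 T' (24 * c) 0) :
    ¬ PacksInto (inst G T') (Fintype.card ι + c) := by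
  classical
  rintro ⟨f0, hf0⟩
  let f : ι ⊕ ι ⊕ ι → Fin (Fintype.card ι + c) := fun x => f0 (Fintype.equivFin _ x)
  let F0 := fun b => univ.filter (fun e : ι => f (Sum.inl e) = b)
  let F1 := fun b => univ.filter (fun e : ι => f (Sum.inr (Sum.inl e)) = b)
  let F2 := fun b => univ.filter (fun e : ι => f (Sum.inr (Sum.inr e)) = b)
  have hf : ∀ b, ∑ e ∈ F0 b, szW T' (G.w e) + ∑ e ∈ F1 b, szH T' (G.h e)
      + ∑ e ∈ F2 b, szA T' (G.a e) ≤ 1 := by
    intro b
    refine le_trans (le_of_eq ?_) (hf0 b)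
    simp only [F0, F1, F2, Finset.sum_filter]
    rw [← Equiv.sum_comp (Fintype.equivFin (ι ⊕ ι ⊕ ι))]
    simp only [Fintype.sum_sum_type, inst, Equiv.symm_apply_apply, sz, f, add_assoc]
  let full : Fin (Fintype.card ι + c) → Prop := fun b =>
    (F0 b).card = 1 ∧ (F1 b).card = 1 ∧ (F2 b).card = 1
  have hcnt : ∀ b, (10 * (F0 b).card + 8 * (F1 b).card + 7 * (F2 b).card : ℤ)
      ≤ 24 + ind (full b) := by
    intro b
    apply bin_count
    have h0 : ((F0 b).card : ℚ) * (399 / 1000) ≤ ∑ e ∈ F0 b, szW T' (G.w e) := by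
      rw [← nsmul_eq_mul]
      apply Finset.card_nsmul_le_sum
      intro e _
      have := frac_bd T' _ (hB.2 e).1
      simp only [szW]
      linarith [this.2]
    have h1 : ((F1 b).card : ℚ) * (320 / 1000) ≤ ∑ e ∈ F1 b, szH T' (G.h e) := by
      rw [← nsmul_eq_mul]
      apply Finset.card_nsmul_le_sum
      intro e _
      have := frac_bd T' _ (hB.2 e).2.2.1
      simp only [szH]
      linarith [this.1]
    have h2 : ((F2 b).card : ℚ) * (280 / 1000) ≤ ∑ e ∈ F2 b, szA T' (G.a e) := by
      rw [← nsmul_eq_mul]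
      apply Finset.card_nsmul_le_sum
      intro e _
      have := frac_bd T' _ (hB.2 e).2.2.2.1
      simp only [szA]
      linarith [this.1]
    have h3 := hf b
    have : ((399 * (F0 b).card + 320 * (F1 b).card + 280 * (F2 b).card : ℕ) : ℚ) ≤ (1000 : ℕ) := by
      push_cast
      linarith
    exact_mod_cast this
  have hfull : (Fintype.card ι : ℤ) - 24 * c ≤ ∑ b, ind (full b) := by
    have h1 := Finset.sum_le_sum (fun b (_ : b ∈ (univ : Finset (Fin (Fintype.card ι + c)))) => hcnt b)
    have e0 : ∑ b, ((F0 b).card : ℤ) = Fintype.card ι := by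
      have := Finset.card_eq_sum_card_fiberwise (s := (univ : Finset ι)) (t := univ)
        (f := fun e => f (Sum.inl e)) (fun _ _ => Finset.mem_univ _)
      rw [Finset.card_univ] at this
      exact_mod_cast this.symm
    have e1 : ∑ b, ((F1 b).card : ℤ) = Fintype.card ι := by
      have := Finset.card_eq_sum_card_fiberwise (s := (univ : Finset ι)) (t := univ)
        (f := fun e => f (Sum.inr (Sum.inl e))) (fun _ _ => Finset.mem_univ _)
      rw [Finset.card_univ] at this
      exact_mod_cast this.symm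
    have e2 : ∑ b, ((F2 b).card : ℤ) = Fintype.card ι := by
      have := Finset.card_eq_sum_card_fiberwise (s := (univ : Finset ι)) (t := univ)
        (f := fun e => f (Sum.inr (Sum.inr e))) (fun _ _ => Finset.mem_univ _)
      rw [Finset.card_univ] at this
      exact_mod_cast this.symm
    simp only [Finset.sum_add_distrib, ← Finset.mul_sum, e0, e1, e2] at h1
    simp at h1
    linarith
  have hE : ∀ b, full b → ∃ e, F0 b = {e} := fun b hb => Finset.card_eq_one.1 hb.1
  have hH : ∀ b, full b → ∃ e, F1 b = {e} := fun b hb => Finset.card_eq_one.1 hb.2.1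
  have hA : ∀ b, full b → ∃ e, F2 b = {e} := fun b hb => Finset.card_eq_one.1 hb.2.2
  choose E hE using hE
  choose H hH using hH
  choose A hA using hA
  have hE' : ∀ b hb e, f (Sum.inl e) = b ↔ e = E b hb := by
    intro b hb e
    rw [← Finset.mem_singleton (b := e), ← hE b hb]; simp [F0]
  have hH' : ∀ b hb e, f (Sum.inr (Sum.inl e)) = b ↔ e = H b hb := by
    intro b hb e
    rw [← Finset.mem_singleton (b := e), ← hH b hb]; simp [F1]
  have hA' : ∀ b hb e, f (Sum.inr (Sum.inr e)) = b ↔ e = A b hb := by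
    intro b hb e
    rw [← Finset.mem_singleton (b := e), ← hA b hb]; simp [F2]
  have hval : ∀ b hb, G.a (A b hb) + G.h (H b hb) ≤ G.w (E b hb) := by
    intro b hb
    have := hf b
    rw [hE b hb, hH b hb, hA b hb] at this
    simp only [Finset.sum_singleton] at this
    exact (triple_iff _ _ _ _).1 this
  let g : ι → ℕ := fun e => if hb : full (f (Sum.inl e)) then G.h (H _ hb) else T'
  apply hN g
  · intro θ _ hθ
    rw [add_zero]
    have hfull' : ∀ e, g e < θ → full (f (Sum.inl e)) := by
      intro e he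
      by_contra hb
      simp only [g, dif_neg hb] at he
      omega
    apply sum_ind_le_of_inj _ _ (fun e he => H _ (hfull' e he))
    · intro e he
      have := he
      simp only [g, dif_pos (hfull' e he)] at this
      exact this
    · intro e e' he he' hee
      have h1 := (hH' _ (hfull' e he) _).2 rfl
      have h2 := (hH' _ (hfull' e' he') _).2 rfl
      have h3 : f (Sum.inl e) = f (Sum.inl e') := by rw [← h1, ← h2, hee]
      have h4 := (hE' _ (hfull' e' he') e).1 h3
      have h5 := (hE' _ (hfull' e' he') e').1 rfl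
      rw [h4, ← h5]
  · intro t
    have h1 : ∑ e, ind (t ≤ G.a e) + ∑ e, ind (full (f (Sum.inr (Sum.inr e))))
        ≤ ∑ _e : ι, (1 : ℤ) + ∑ e, ind (full (f (Sum.inr (Sum.inr e))) ∧ t ≤ G.a e) := by
      rw [← Finset.sum_add_distrib, ← Finset.sum_add_distrib]
      apply Finset.sum_le_sum
      intro e _
      by_cases h1 : full (f (Sum.inr (Sum.inr e)))
      · simp only [h1, true_and, ind_true]
        linarith
      · simp only [h1, false_and, ind_false]
        linarith [ind_le_one (t ≤ G.a e)]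
    have h2 : ∑ b, ind (full b) ≤ ∑ e, ind (full (f (Sum.inr (Sum.inr e)))) := by
      apply sum_ind_le_of_inj _ _ (fun b hb => A b hb)
      · intro b hb
        rw [(hA' b hb _).2 rfl]
        exact hb
      · intro b b' hb hb' hbb
        rw [← (hA' b hb _).2 rfl, ← (hA' b' hb' _).2 rfl]
        simp only [hbb]
    have h3 : ∑ e, ind (full (f (Sum.inr (Sum.inr e))) ∧ t ≤ G.a e)
        ≤ ∑ e, ind (t + g e ≤ G.w e) := by
      apply sum_ind_le_of_inj _ _ (fun e he => E _ he.1)
      · intro e he
        have h4 := (hE' _ he.1 _).2 rfl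
        have h5 : full (f (Sum.inl (E _ he.1))) := by rw [h4]; exact he.1
        have h6 : g (E _ he.1) = G.h (H _ he.1) := by
          simp only [g, dif_pos h5]
          congr 1
          apply (hH' _ he.1 _).1
          rw [(hH' _ h5 _).2 rfl, h4]
        have h7 := hval _ he.1
        have h8 := (hA' _ he.1 e).1 rfl
        rw [← h8] at h7
        have := he.2
        omega
      · intro e e' he he' hee
        have h4 := (hE' _ he.1 _).2 rfl
        have h5 := (hE' _ he'.1 _).2 rfl
        have h6 : f (Sum.inr (Sum.inr e)) = f (Sum.inr (Sum.inr e')) := by rw [← h4, ← h5, hee]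
        have h7 := (hA' _ he'.1 e).1 h6
        have h8 := (hA' _ he'.1 e').1 rfl
        rw [h7, ← h8]
    simp only [Finset.sum_const, Finset.card_univ, nsmul_eq_mul, mul_one] at h1
    linarith

theorem gap_of_fam (c : ℕ) (hF : Fam ι 0 (24 * c) 0) :
    ∃ a : Fin (Fintype.card (ι ⊕ ι ⊕ ι)) → ℚ, (∀ i, 1 / 4 < a i ∧ a i < 1 / 2) ∧
      LP a ≤ Fintype.card ι ∧ Fintype.card ι + c < OPT a := by
  obtain ⟨G, T', hB, hFr, hN⟩ := hF 0
  refine ⟨inst G T', inst_range G T' hB, inst_LP G T' hFr, ?_⟩
  apply lt_OPT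
  · intro i
    linarith [(inst_range G T' hB i).2]
  · exact inst_noPack G T' c hB hN

theorem unbounded_gap (c : ℕ) : ∃ (n : ℕ) (a : Fin n → ℚ), (∀ i, 1 / 4 < a i ∧ a i < 1 / 2) ∧
    ⌈LP a⌉ + (c : ℤ) < (OPT a : ℤ) := by
  obtain ⟨κ, hκ, hF⟩ := fam_exists (24 * c + 1) 0 le_rfl
  have e : ((24 * c + 1 : ℕ) : ℤ) - 1 = 24 * c := by push_cast; ring
  rw [e] at hF
  obtain ⟨a, h1, h2, h3⟩ := gap_of_fam c hF
  refine ⟨_, a, h1, ?_⟩
  have h4 : ⌈LP a⌉ ≤ (Fintype.card κ : ℤ) := Int.ceil_le.2 (by exact_mod_cast h2)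
  have h5 : ((Fintype.card κ + c : ℕ) : ℤ) < (OPT a : ℤ) := by exact_mod_cast h3
  push_cast at h5
  linarith

end Vale.Agent.P302
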